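import Vale.Agent.P363.R.Sob.S14
import Vale.Agent.P247.H899.Riesz

/-!
# A distributional derivative which is bounded in `L²` on compact sets is a weak derivative
-/

open scoped ContDiff Topology ENNReal
open Set MeasureTheory Filter Metric

noncomputable section

namespace Vale.Agent.P247.H109

open Vale.Agent.P363.R.Sob

set_option linter.unusedSectionVars false

variable {E : Type*} [NormedAddCommGroup E] [NormedSpace ℝ E] [FiniteDimensional ℝ E]
  [MeasurableSpace E] [BorelSpace E]
variable {μ : Measure E} [μ.IsAddHaarMeasure] {v : E}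

/-- smooth complex functions with support in the closed ball of radius `n` -/
def CK (E : Type*) [NormedAddCommGroup E] [NormedSpace ℝ E] (n : ℕ) : Submodule ℂ (E → ℂ) where
  carrier := {f | ContDiff ℝ ∞ f ∧ tsupport f ⊆ closedBall 0 n}
  add_mem' := by
    rintro f g ⟨hf, sf⟩ ⟨hg, sg⟩
    exact ⟨hf.add hg, (tsupport_add f g).trans (union_subset sf sg)⟩
  zero_mem' := ⟨contDiff_const, by simp⟩
  smul_mem' := by
    rintro c f ⟨hf, sf⟩
    exact ⟨contDiff_const.smul hf, (tsupport_smul_subset_right (fun _ => c) f).trans sf⟩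

theorem CK.compact {n : ℕ} {f : E → ℂ} (hf : f ∈ CK E n) : HasCompactSupport f :=
  (isCompact_closedBall 0 (n : ℝ)).of_isClosed_subset (isClosed_tsupport f) hf.2

theorem CK.memLp {n : ℕ} {f : E → ℂ} (hf : f ∈ CK E n) (p : ℝ≥0∞) : MemLp f p μ :=
  hf.1.continuous.memLp_of_hasCompactSupport (CK.compact hf)

theorem continuous_fd {f : E → ℂ} (hf : ContDiff ℝ ∞ f) (v : E) :
    Continuous fun x => fderiv ℝ f x v :=
  (hf.continuous_fderiv (by simp)).clm_apply continuous_const

theorem compact_fd {f : E → ℂ} (hf : HasCompactSupport f) (v : E) :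
    HasCompactSupport fun x => fderiv ℝ f x v := hf.fderiv_apply (𝕜 := ℝ) v

/-- the product of a continuous compactly supported function and a locally integrable function -/
theorem integrable_cc {f g : E → ℂ} (hf : Continuous f) (hs : HasCompactSupport f)
    (hg : LocallyIntegrable g μ) : Integrable (fun x => f x * g x) μ := by
  have := hg.integrable_smul_left_of_hasCompactSupport hf hs
  simpa only [smul_eq_mul] using this

theorem exists_radius {K : Set E} (hK : IsCompact K) : ∃ n : ℕ, K ⊆ ball 0 n := by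
  obtain ⟨r, hr⟩ := hK.isBounded.subset_ball 0
  obtain ⟨n, hn⟩ := exists_nat_ge r
  exact ⟨n, hr.trans (ball_subset_ball hn)⟩

/-- **BDW**: a locally integrable function with a distributional derivative bounded in `L²` on
compact sets has a weak derivative in `L²_loc`. -/
theorem bdw {f : E → ℂ} (hf : LocallyIntegrable f μ)
    (hC : ∀ n : ℕ, ∃ C : ℝ, ∀ φ ∈ CK E n,
      ‖∫ x, fderiv ℝ φ x v * f x ∂μ‖ ≤ C * Real.sqrt (∫ x, ‖φ x‖ ^ 2 ∂μ)) :
    ∃ g : E → ℂ, IsWD μ v f g ∧ (∀ K : Set E, IsCompact K → MemLp g 2 (μ.restrict K)) ∧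
      LocallyIntegrable g μ := by
  classical
  have h1 : ∀ n : ℕ, ∃ P : E → ℂ, MemLp P 2 μ ∧ ∀ φ ∈ CK E n,
      -∫ x, fderiv ℝ φ x v * f x ∂μ = ∫ x, φ x * P x ∂μ := by
    intro n
    obtain ⟨C, hC⟩ := hC n
    let Λ : CK E n →ₗ[ℂ] ℂ :=
      { toFun := fun φ => -∫ x, fderiv ℝ (φ : E → ℂ) x v * f x ∂μ
        map_add' := by
          rintro ⟨φ, hφ⟩ ⟨ψ, hψ⟩
          have e1 : ∀ x, fderiv ℝ (φ + ψ) x v * f x =
              fderiv ℝ φ x v * f x + fderiv ℝ ψ x v * f x := by
            intro x
            rw [fderiv_add (hφ.1.differentiable (by simp) x) (hψ.1.differentiable (by simp) x),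
              ContinuousLinearMap.add_apply, add_mul]
          show -∫ x, fderiv ℝ (φ + ψ) x v * f x ∂μ = _
          simp only [e1]
          rw [integral_add
            (integrable_cc (continuous_fd hφ.1 v) (compact_fd (CK.compact hφ) v) hf)
            (integrable_cc (continuous_fd hψ.1 v) (compact_fd (CK.compact hψ) v) hf), neg_add]
        map_smul' := by
          rintro c ⟨φ, hφ⟩
          have e1 : ∀ x, fderiv ℝ (c • φ) x v * f x = c * (fderiv ℝ φ x v * f x) := by
            intro x
            rw [fderiv_const_smul (hφ.1.differentiable (by simp) x),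
              ContinuousLinearMap.smul_apply, smul_eq_mul, mul_assoc]
          show -∫ x, fderiv ℝ (c • φ) x v * f x ∂μ = c • (-∫ x, fderiv ℝ φ x v * f x ∂μ)
          simp only [e1]
          rw [integral_const_mul, smul_eq_mul, mul_neg] }
    obtain ⟨P, hP, -, h⟩ := H899.riesz_of_bound μ (CK E n) (fun f hf => CK.memLp hf 2) Λ C (by
      rintro ⟨φ, hφ⟩
      show ‖-∫ x, fderiv ℝ φ x v * f x ∂μ‖ ≤ _
      rw [norm_neg]
      exact hC φ hφ)
    exact ⟨P, hP, fun φ hφ => (h ⟨φ, hφ⟩).2⟩
  choose P hP hΛ using h1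
  have hPl : ∀ n, LocallyIntegrable (P n) μ := fun n => (hP n).locallyIntegrable (by norm_num)
  -- real test functions
  have hre : ∀ (n : ℕ) (φ : E → ℝ), Test φ → tsupport φ ⊆ closedBall 0 n →
      ∫ x, (fderiv ℝ φ x v) • f x ∂μ = -∫ x, φ x • P n x ∂μ := by
    intro n φ hφ hs
    have hmem : (fun x => (φ x : ℂ)) ∈ CK E n := by
      refine ⟨Complex.ofRealCLM.contDiff.comp hφ.1, ?_⟩
      refine (closure_mono ?_).trans hs
      intro x hx hx'
      exact hx (by simp [hx'])
    have h2 := hΛ n _ hmem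
    have e1 : ∀ x, fderiv ℝ (fun x => (φ x : ℂ)) x v = (fderiv ℝ φ x v : ℂ) := by
      intro x
      have := (Complex.ofRealCLM.hasFDerivAt (x := φ x)).comp x
        (hφ.differentiable x).hasFDerivAt
      have h3 : fderiv ℝ (fun x => (φ x : ℂ)) x = _ := this.fderiv
      rw [h3]; rfl
    simp only [e1] at h2
    simp only [Complex.real_smul]
    rw [← h2, neg_neg]
  -- the functions agree
  have hag : ∀ n m : ℕ, n ≤ m → ∀ᵐ x ∂μ, x ∈ ball (0 : E) n → P n x = P m x := by
    intro n m hnm
    have h3 : ∀ᵐ x ∂μ, x ∈ ball (0 : E) n → (P n - P m) x = 0 := by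
      refine IsOpen.ae_eq_zero_of_integral_contDiff_smul_eq_zero isOpen_ball
        (((hPl n).sub (hPl m)).locallyIntegrableOn _) fun φ hφ hc hs => ?_
      have a1 := hre n φ ⟨hφ, hc⟩ (hs.trans ball_subset_closedBall)
      have a2 := hre m φ ⟨hφ, hc⟩ ((hs.trans ball_subset_closedBall).trans
        (closedBall_subset_closedBall (by exact_mod_cast hnm)))
      have a3 : ∫ x, φ x • P n x ∂μ = ∫ x, φ x • P m x ∂μ := by
        rw [a1] at a2
        exact neg_injective a2
      simp only [Pi.sub_apply, smul_sub]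
      rw [integral_sub (Test.integrable_smul ⟨hφ, hc⟩ (hPl n))
        (Test.integrable_smul ⟨hφ, hc⟩ (hPl m)), a3, sub_self]
    filter_upwards [h3] with x hx hxn
    exact sub_eq_zero.1 (hx hxn)
  let g : E → ℂ := fun x => P (⌊‖x‖⌋₊ + 1) x
  have hg : ∀ n : ℕ, ∀ᵐ x ∂μ, x ∈ ball (0 : E) n → g x = P n x := by
    intro n
    have h4 : ∀ᵐ x ∂μ, ∀ m : ℕ, m ≤ n → x ∈ ball (0 : E) m → P m x = P n x := by
      rw [ae_all_iff]
      intro m
      by_cases hm : m ≤ n
      · filter_upwards [hag m n hm] with x hx _ hxm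
        exact hx hxm
      · exact Eventually.of_forall fun x h => absurd h hm
    filter_upwards [h4] with x hx hxn
    have hxn' : ‖x‖ < n := by simpa using hxn
    refine hx _ ?_ ?_
    · have : ⌊‖x‖⌋₊ < n := (Nat.floor_lt (norm_nonneg x)).2 hxn'
      omega
    · rw [mem_ball_zero_iff]
      push_cast
      exact Nat.lt_floor_add_one _
  have hmem : ∀ K : Set E, IsCompact K → MemLp g 2 (μ.restrict K) := by
    intro K hK
    obtain ⟨n, hn⟩ := exists_radius hK
    have h5 : g =ᵐ[μ.restrict K] P n := by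
      filter_upwards [ae_restrict_of_ae (hg n), ae_restrict_mem hK.measurableSet] with x hx hxK
      exact hx (hn hxK)
    exact ((hP n).restrict K).ae_eq h5.symm
  have hloc : LocallyIntegrable g μ := by
    rw [locallyIntegrable_iff]
    intro K hK
    have h6 : MemLp g 1 (μ.restrict K) := by
      haveI : IsFiniteMeasure (μ.restrict K) := ⟨by
        rw [Measure.restrict_apply_univ]; exact hK.measure_lt_top⟩
      exact (hmem K hK).mono_exponent (by norm_num)
    exact memLp_one_iff_integrable.1 h6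
  refine ⟨g, ?_, hmem, hloc⟩
  intro φ hφ
  obtain ⟨n, hn⟩ := exists_radius hφ.2.isCompact
  rw [hre n φ hφ (hn.trans ball_subset_closedBall)]
  congr 1
  refine integral_congr_ae ?_
  filter_upwards [hg n] with x hx
  by_cases hxs : x ∈ tsupport φ
  · rw [hx (hn hxs)]
  · rw [image_eq_zero_of_notMem_tsupport hxs]; simp

end Vale.Agent.P247.H109
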