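import Vale.Agent.P247.H109.BDW
import Vale.Agent.P363.R.Sob.LocApprox

/-!
# Difference quotients
-/

open scoped ContDiff Topology ENNReal
open Set MeasureTheory Filter Metric

noncomputable section

namespace Vale.Agent.P247.H109

open Vale.Agent.P363.R.Sob

set_option linter.unusedSectionVars false

variable {E : Type*} [NormedAddCommGroup E] [NormedSpace ℝ E] [FiniteDimensional ℝ E]
  [MeasurableSpace E] [BorelSpace E]
variable {F : Type*} [NormedAddCommGroup F] [NormedSpace ℝ F]
variable {μ : Measure E} [μ.IsAddHaarMeasure] {v w : E}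

/-- the difference quotient -/
def dq (h : ℝ) (v : E) (f : E → F) (x : E) : F := h⁻¹ • (f (x + h • v) - f x)

/-! ## translations -/

/-- `L^p` norm of a translate -/
theorem eLpNorm_trans_le {f : E → F} {p : ℝ≥0∞} {K K' : Set E} (hK' : MeasurableSet K') {a : E}
    (hf : AEStronglyMeasurable f (μ.restrict K')) (h : ∀ x ∈ K, x + a ∈ K') :
    eLpNorm (fun x => f (x + a)) p (μ.restrict K) ≤ eLpNorm f p (μ.restrict K') := by
  have h1 : MeasurePreserving (fun x => x + a) (μ.restrict ((fun x => x + a) ⁻¹' K'))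
      (μ.restrict K') := (measurePreserving_add_right μ a).restrict_preimage hK'
  have h2 := eLpNorm_comp_measurePreserving (p := p) hf h1
  rw [← h2]
  exact eLpNorm_mono_measure _ (Measure.restrict_mono_set μ fun x hx => h x hx)

theorem aesm_trans {f : E → F} {K K' : Set E} (hK' : MeasurableSet K') {a : E}
    (hf : AEStronglyMeasurable f (μ.restrict K')) (h : ∀ x ∈ K, x + a ∈ K') :
    AEStronglyMeasurable (fun x => f (x + a)) (μ.restrict K) := by
  have h1 : MeasurePreserving (fun x => x + a) (μ.restrict ((fun x => x + a) ⁻¹' K'))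
      (μ.restrict K') := (measurePreserving_add_right μ a).restrict_preimage hK'
  have h2 := hf.comp_measurePreserving h1
  exact h2.mono_measure (Measure.restrict_mono_set μ fun x hx => h x hx)

theorem memLp_trans {f : E → F} {p : ℝ≥0∞} {K K' : Set E} (hK' : MeasurableSet K') {a : E}
    (hf : MemLp f p (μ.restrict K')) (h : ∀ x ∈ K, x + a ∈ K') :
    MemLp (fun x => f (x + a)) p (μ.restrict K) :=
  ⟨aesm_trans hK' hf.1 h, (eLpNorm_trans_le hK' hf.1 h).trans_lt hf.2⟩

theorem add_mem_cthickening {K : Set E} {r : ℝ} {a : E} (ha : ‖a‖ ≤ r) {x : E} (hx : x ∈ K) :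
    x + a ∈ cthickening r K := by
  refine mem_cthickening_of_dist_le _ x r K hx ?_
  simpa [dist_eq_norm] using ha

theorem locInt_trans {f : E → F} (hf : LocallyIntegrable f μ) (a : E) :
    LocallyIntegrable (fun x => f (x + a)) μ := by
  rw [locallyIntegrable_iff] at hf ⊢
  intro K hK
  have h1 : IsCompact (cthickening ‖a‖ K) := hK.cthickening
  have h2 := memLp_one_iff_integrable.2 (hf _ h1)
  exact memLp_one_iff_integrable.1 (memLp_trans h1.measurableSet h2
    fun x hx => add_mem_cthickening le_rfl hx)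

theorem locInt_dq {f : E → F} (hf : LocallyIntegrable f μ) (h : ℝ) (v : E) :
    LocallyIntegrable (dq h v f) μ :=
  ((locInt_trans hf (h • v)).sub hf).smul h⁻¹

theorem memLp_dq {f : E → F} {p : ℝ≥0∞} {K : Set E} (hK : IsCompact K) {h r : ℝ}
    (hr : ‖h • v‖ ≤ r) (hf : MemLp f p (μ.restrict (cthickening r K))) :
    MemLp (dq h v f) p (μ.restrict K) := by
  have h1 : IsCompact (cthickening r K) := hK.cthickening
  have h2 : MemLp (fun x => f (x + h • v)) p (μ.restrict K) :=
    memLp_trans h1.measurableSet hf fun x hx => add_mem_cthickening hr hx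
  have h3 : MemLp f p (μ.restrict K) :=
    hf.mono_measure (Measure.restrict_mono_set μ (self_subset_cthickening K))
  exact (h2.sub h3).const_smul h⁻¹

/-- weak derivatives commute with translations -/
theorem IsWD.trans {f g : E → F} (h : IsWD μ w f g) (a : E) :
    IsWD μ w (fun x => f (x + a)) (fun x => g (x + a)) := by
  intro φ hφ
  have hφ' : Test (fun x => φ (x - a)) := by
    refine ⟨hφ.1.comp (contDiff_id.sub contDiff_const), ?_⟩
    exact hφ.2.comp_homeomorph (Homeomorph.subRight a)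
  have h1 := h _ hφ'
  have h2 : ∀ x, fderiv ℝ (fun x => φ (x - a)) x w = fderiv ℝ φ (x - a) w := by
    intro x
    exact congrArg (fun L : E →L[ℝ] ℝ => L w) (fderiv_comp_sub a)
  simp only [h2] at h1
  rw [← integral_add_right_eq_self (fun x => (fderiv ℝ φ (x - a) w) • f x) a,
    ← integral_add_right_eq_self (fun x => φ (x - a) • g x) a] at h1
  simpa using h1

/-- weak derivatives commute with difference quotients -/
theorem IsWD.dq {f g : E → F} (h : IsWD μ w f g) (hf : LocallyIntegrable f μ)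
    (hg : LocallyIntegrable g μ) (s : ℝ) (v : E) :
    IsWD μ w (dq s v f) (dq s v g) :=
  ((IsWD.trans h (s • v)).sub h (locInt_trans hf _) (locInt_trans hg _) hf hg).const_smul s⁻¹

/-! ## algebra -/

theorem dq_add (h : ℝ) (v : E) (f g : E → F) :
    dq h v (fun x => f x + g x) = fun x => dq h v f x + dq h v g x := by
  ext x; simp only [dq, ← smul_add]; congr 1; abel

theorem dq_sub (h : ℝ) (v : E) (f g : E → F) :
    dq h v (fun x => f x - g x) = fun x => dq h v f x - dq h v g x := by
  ext x; simp only [dq, ← smul_sub]; congr 1; abel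

theorem dq_sum {ι : Type*} (s : Finset ι) (h : ℝ) (v : E) (f : ι → E → F) :
    dq h v (fun x => ∑ i ∈ s, f i x) = fun x => ∑ i ∈ s, dq h v (f i) x := by
  ext x; simp only [dq, ← Finset.smul_sum, ← Finset.sum_sub_distrib]

/-- product rule -/
theorem dq_mul (h : ℝ) (v : E) (f g : E → ℂ) (x : E) :
    dq h v (fun x => f x * g x) x = f (x + h • v) * dq h v g x + dq h v f x * g x := by
  simp only [dq, Complex.real_smul]; ring

/-- the other product rule -/
theorem dq_mul' (h : ℝ) (v : E) (f g : E → ℂ) (x : E) :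
    dq h v (fun x => f x * g x) x = f x * dq h v g x + dq h v f x * g (x + h • v) := by
  simp only [dq, Complex.real_smul]; ring

theorem dq_smul (h : ℝ) (v : E) (f : E → ℝ) (g : E → F) (x : E) :
    dq h v (fun x => f x • g x) x = f (x + h • v) • dq h v g x + dq h v f x • g x := by
  simp only [dq, smul_sub, smul_smul, sub_smul, smul_eq_mul, mul_sub]
  rw [mul_comm h⁻¹ (f (x + h • v)), mul_comm h⁻¹ (f x), ← sub_eq_zero]
  abel

/-- integration by parts for difference quotients -/
theorem integral_dq {f φ : E → ℂ} (hf : LocallyIntegrable f μ) (hφ : Continuous φ)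
    (hs : HasCompactSupport φ) (h : ℝ) (v : E) :
    ∫ x, dq (-h) v φ x * f x ∂μ = -∫ x, φ x * dq h v f x ∂μ := by
  have hφ1 : Continuous fun x => φ (x + (-h) • v) := hφ.comp (continuous_id.add continuous_const)
  have hs1 : HasCompactSupport fun x => φ (x + (-h) • v) :=
    hs.comp_homeomorph (Homeomorph.addRight ((-h) • v))
  have i1 := integrable_cc hφ1 hs1 hf
  have i2 := integrable_cc hφ hs hf
  have i3 := integrable_cc hφ hs (locInt_trans hf (h • v))
  have e1 : ∫ x, φ (x + (-h) • v) * f x ∂μ = ∫ x, φ x * f (x + h • v) ∂μ := by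
    rw [← integral_add_right_eq_self (fun x => φ (x + (-h) • v) * f x) (h • v)]
    refine integral_congr_ae (Eventually.of_forall fun x => ?_)
    simp only [neg_smul, add_neg_cancel_right]
  have e2 : ∀ x, dq (-h) v φ x * f x =
      (-(h : ℂ)⁻¹) * (φ (x + (-h) • v) * f x - φ x * f x) := by
    intro x
    simp only [dq, Complex.real_smul]
    push_cast
    rw [inv_neg]
    ring
  have e3 : ∀ x, φ x * dq h v f x = (h : ℂ)⁻¹ * (φ x * f (x + h • v) - φ x * f x) := by
    intro x
    simp only [dq, Complex.real_smul]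
    push_cast
    ring
  simp only [e2, e3]
  rw [integral_const_mul, integral_const_mul, integral_sub i1 i2, integral_sub i3 i2, e1]
  ring

/-! ## difference quotients of smooth functions -/

theorem dq_eq_integral [CompleteSpace F] {f : E → F} (hf : ContDiff ℝ 1 f) {h : ℝ} (hh : h ≠ 0)
    (x : E) :
    dq h v f x = ∫ t in (0 : ℝ)..1, fderiv ℝ f (x + (t * h) • v) v := by
  have hd : Differentiable ℝ f := hf.differentiable one_ne_zero
  have hc : Continuous fun t : ℝ => fderiv ℝ f (x + (t * h) • v) v :=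
    ((hf.continuous_fderiv one_ne_zero).comp (by fun_prop)).clm_apply continuous_const
  have h1 : ∀ t ∈ uIcc (0 : ℝ) 1, HasDerivAt (fun t => f (x + (t * h) • v))
      (h • fderiv ℝ f (x + (t * h) • v) v) t := by
    intro t _
    have h2 : HasDerivAt (fun t : ℝ => x + (t * h) • v) ((1 * h) • v) t :=
      (((hasDerivAt_id t).mul_const h).smul_const v).const_add x
    have h3 := (hd (x + (t * h) • v)).hasFDerivAt.comp_hasDerivAt t h2
    simpa [Function.comp_def] using h3
  have h4 := intervalIntegral.integral_eq_sub_of_hasDerivAt h1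
    ((continuous_const.smul hc).intervalIntegrable 0 1)
  rw [intervalIntegral.integral_smul] at h4
  simp only [one_mul, zero_mul, zero_smul, add_zero] at h4
  rw [dq, ← h4, smul_smul, inv_mul_cancel₀ hh, one_smul]

/-- `L^p` bound for difference quotients of `C¹` functions -/
theorem eLpNorm_dq_le_smooth [CompleteSpace F] {f : E → F} (hf : ContDiff ℝ 1 f) {h r : ℝ}
    (hh : h ≠ 0) (hr : ‖h • v‖ ≤ r) {p : ℝ≥0∞} (hp1 : 1 ≤ p) (hp : p ≠ ⊤) {K : Set E}
    (hK : IsCompact K) :
    eLpNorm (dq h v f) p (μ.restrict K) ≤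
      eLpNorm (fun x => fderiv ℝ f x v) p (μ.restrict (cthickening r K)) := by
  have hp0 : p ≠ 0 := (lt_of_lt_of_le one_pos hp1).ne'
  have hq : 1 ≤ p.toReal := by
    have := (ENNReal.toReal_le_toReal ENNReal.one_ne_top hp).2 hp1
    simpa using this
  have hq0 : 0 < p.toReal := lt_of_lt_of_le one_pos hq
  set q := p.toReal with hqdef
  set g : E → F := fun x => fderiv ℝ f x v with hg
  have hgc : Continuous g := (hf.continuous_fderiv one_ne_zero).clm_apply continuous_const
  have hK' : IsCompact (cthickening r K) := hK.cthickening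
  rw [eLpNorm_eq_lintegral_rpow_enorm_toReal hp0 hp, eLpNorm_eq_lintegral_rpow_enorm_toReal hp0 hp]
  refine ENNReal.rpow_le_rpow ?_ (by positivity)
  -- pointwise bound
  have hpt : ∀ x, ‖dq h v f x‖ₑ ^ q ≤ ∫⁻ t in Ioc (0 : ℝ) 1, ‖g (x + (t * h) • v)‖ₑ ^ q := by
    intro x
    have hc : Continuous fun t : ℝ => g (x + (t * h) • v) := hgc.comp (by fun_prop)
    have : IsProbabilityMeasure (volume.restrict (Ioc (0 : ℝ) 1)) := ⟨by simp⟩
    have h1 := eLpNorm'_le_eLpNorm'_of_exponent_le (p := 1) (q := q) one_pos hq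
      (volume.restrict (Ioc (0 : ℝ) 1)) hc.aestronglyMeasurable
    have h2 : ‖dq h v f x‖ₑ ≤ eLpNorm' (fun t : ℝ => g (x + (t * h) • v)) 1
        (volume.restrict (Ioc (0 : ℝ) 1)) := by
      rw [dq_eq_integral hf hh, intervalIntegral.integral_of_le zero_le_one]
      refine (enorm_integral_le_lintegral_enorm _).trans (le_of_eq ?_)
      simp [eLpNorm']
      rfl
    have h3 := ENNReal.rpow_le_rpow (h2.trans h1) hq0.le
    refine h3.trans (le_of_eq ?_)
    rw [eLpNorm', ← ENNReal.rpow_mul, one_div, inv_mul_cancel₀ hq0.ne', ENNReal.rpow_one]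
  calc ∫⁻ x in K, ‖dq h v f x‖ₑ ^ q ∂μ
      ≤ ∫⁻ x in K, (∫⁻ t in Ioc (0 : ℝ) 1, ‖g (x + (t * h) • v)‖ₑ ^ q) ∂μ :=
        lintegral_mono fun x => hpt x
    _ = ∫⁻ t in Ioc (0 : ℝ) 1, (∫⁻ x in K, ‖g (x + (t * h) • v)‖ₑ ^ q ∂μ) := by
        refine lintegral_lintegral_swap ?_
        have hc : Continuous fun z : E × ℝ => ‖g (z.1 + (z.2 * h) • v)‖ₑ :=
          (hgc.comp (by fun_prop)).enorm
        exact (hc.measurable.pow_const q).aemeasurable
    _ ≤ ∫⁻ _ in Ioc (0 : ℝ) 1, (∫⁻ x in cthickening r K, ‖g x‖ₑ ^ q ∂μ) := by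
        refine setLIntegral_mono' measurableSet_Ioc fun t ht => ?_
        have h1 : ∀ x ∈ K, x + (t * h) • v ∈ cthickening r K := by
          intro x hx
          refine add_mem_cthickening ?_ hx
          rw [mul_smul, norm_smul, Real.norm_of_nonneg ht.1.le]
          calc t * ‖h • v‖ ≤ 1 * ‖h • v‖ := mul_le_mul_of_nonneg_right ht.2 (norm_nonneg _)
            _ ≤ r := by rw [one_mul]; exact hr
        have h2 : ∫⁻ x in K, ‖g (x + (t * h) • v)‖ₑ ^ q ∂μ ≤
            ∫⁻ x, (cthickening r K).indicator (fun y => ‖g y‖ₑ ^ q) (x + (t * h) • v) ∂μ := by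
          rw [← lintegral_indicator hK.measurableSet]
          refine lintegral_mono fun x => ?_
          by_cases hx : x ∈ K
          · rw [indicator_of_mem hx, indicator_of_mem (h1 x hx)]
          · rw [indicator_of_notMem hx]; exact zero_le
        refine h2.trans (le_of_eq ?_)
        rw [lintegral_add_right_eq_self
          (fun x => (cthickening r K).indicator (fun y => ‖g y‖ₑ ^ q) x) ((t * h) • v),
          lintegral_indicator hK'.measurableSet]
    _ = ∫⁻ x in cthickening r K, ‖g x‖ₑ ^ q ∂μ := by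
        simp

/-! ## the bound for functions with a weak derivative -/

/-- local `L^p` convergence of mollifications -/
theorem tendsto_moll_locp [CompleteSpace F] {p : ℝ≥0∞} (hp1 : 1 ≤ p) (hp : p ≠ ⊤) {f : E → F}
    {K : Set E} (hK : IsCompact K) (hf : MemLp f p (μ.restrict (cthickening 1 K))) :
    Tendsto (fun n => eLpNorm (moll μ (stdBump n) f - f) p (μ.restrict K)) atTop (𝓝 0) := by
  have hK' : IsCompact (cthickening 1 K) := hK.cthickening
  set f' : E → F := (cthickening 1 K).indicator f with hf'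
  have hfi : MemLp f' p μ := (memLp_indicator_iff_restrict hK'.measurableSet).2 hf
  have : Fact (1 ≤ p) := ⟨hp1⟩
  have h1 := tendsto_moll_std (μ := μ) hp hfi
  refine tendsto_of_tendsto_of_tendsto_of_le_of_le tendsto_const_nhds h1 (fun _ => zero_le)
    fun n => ?_
  refine le_trans (le_of_eq ?_) (eLpNorm_mono_measure _ (Measure.restrict_le_self (s := K)))
  refine eLpNorm_congr_ae ?_
  filter_upwards [ae_restrict_mem hK.measurableSet] with x hx
  have hxK : x ∈ cthickening 1 K := self_subset_cthickening K hx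
  have hb : ∀ y ∈ ball x (stdBump n : ContDiffBump (0 : E)).rOut, f y = f' y := by
    intro y hy
    have hy1 : dist y x < 1 := lt_of_lt_of_le (mem_ball.1 hy) (stdBump_rOut_le n)
    have : y ∈ cthickening 1 K := mem_cthickening_of_dist_le y x 1 K hx hy1.le
    rw [hf', indicator_of_mem this]
  simp only [Pi.sub_apply]
  rw [moll_congr_on _ hb, hf', indicator_of_mem hxK]

/-- **(a)**: `L^p` bound for difference quotients by the weak derivative -/
theorem eLpNorm_dq_le [CompleteSpace F] {f g : E → F} (W : IsWD μ v f g)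
    (hf : LocallyIntegrable f μ) {p : ℝ≥0∞} (hp1 : 1 ≤ p) (hp : p ≠ ⊤)
    (hg : ∀ K : Set E, IsCompact K → MemLp g p (μ.restrict K)) {h r : ℝ}
    (hh : h ≠ 0) (hr : ‖h • v‖ ≤ r) {K : Set E} (hK : IsCompact K) :
    eLpNorm (dq h v f) p (μ.restrict K) ≤ eLpNorm g p (μ.restrict (cthickening r K)) := by
  have hK' : IsCompact (cthickening r K) := hK.cthickening
  have hK1 : IsCompact (cthickening 1 (cthickening r K)) := hK'.cthickening
  have hdm : ∀ n, fderiv ℝ (moll μ (stdBump n) f) = fderiv ℝ (moll μ (stdBump n) f) := fun _ => rfl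
  have e1 : ∀ n, (fun x => fderiv ℝ (moll μ (stdBump n) f) x v) = moll μ (stdBump n) g := by
    intro n; ext x; exact fderiv_moll _ W hf x
  have b1 : ∀ n, eLpNorm (dq h v (moll μ (stdBump n) f)) p (μ.restrict K) ≤
      eLpNorm (moll μ (stdBump n) g) p (μ.restrict (cthickening r K)) := by
    intro n
    have := eLpNorm_dq_le_smooth (μ := μ) (v := v)
      ((moll_contDiff (stdBump n) hf).of_le (by simp) : ContDiff ℝ 1 (moll μ (stdBump n) f))
      hh hr hp1 hp hK
    rwa [e1 n] at this
  have c1 := tendsto_moll_locp hp1 hp hK' (hg _ hK1)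
  -- convergence of the difference quotients in `L¹`
  have hfl : ∀ K : Set E, IsCompact K → MemLp f 1 (μ.restrict K) := fun K hK =>
    memLp_one_iff_integrable.2 (locallyIntegrable_iff.1 hf K hK)
  have c2 := tendsto_moll_locp le_rfl (by norm_num) hK' (hfl _ hK1)
  have hKK' : K ⊆ cthickening r K := self_subset_cthickening K
  have hloc : ∀ n, LocallyIntegrable (moll μ (stdBump n) f) μ := fun n =>
    (moll_contDiff _ hf).continuous.locallyIntegrable
  have c3 : Tendsto (fun n => eLpNorm (dq h v (moll μ (stdBump n) f) - dq h v f) 1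
      (μ.restrict K)) atTop (𝓝 0) := by
    have e2 : ∀ n, dq h v (moll μ (stdBump n) f) - dq h v f =
        h⁻¹ • ((fun x => (moll μ (stdBump n) f - f) (x + h • v)) -
          (moll μ (stdBump n) f - f)) := by
      intro n
      ext x
      simp only [dq, Pi.sub_apply, Pi.smul_apply, ← smul_sub]
      congr 1
      abel
    have b2 : ∀ n, eLpNorm (dq h v (moll μ (stdBump n) f) - dq h v f) 1 (μ.restrict K) ≤
        ‖h⁻¹‖ₑ * (eLpNorm (moll μ (stdBump n) f - f) 1 (μ.restrict (cthickening r K)) +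
          eLpNorm (moll μ (stdBump n) f - f) 1 (μ.restrict (cthickening r K))) := by
      intro n
      have m1 : AEStronglyMeasurable (moll μ (stdBump n) f - f)
          (μ.restrict (cthickening r K)) :=
        (((hloc n).sub hf).aestronglyMeasurable).restrict
      have m2 : AEStronglyMeasurable (fun x => (moll μ (stdBump n) f - f) (x + h • v))
          (μ.restrict K) :=
        aesm_trans hK'.measurableSet m1 fun x hx => add_mem_cthickening hr hx
      rw [e2, eLpNorm_const_smul]
      refine mul_le_mul_right ?_ _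
      refine (eLpNorm_sub_le m2 (((hloc n).sub hf).aestronglyMeasurable.restrict) le_rfl).trans
        (add_le_add ?_ (eLpNorm_mono_measure _ (Measure.restrict_mono_set μ hKK')))
      exact eLpNorm_trans_le hK'.measurableSet m1 fun x hx => add_mem_cthickening hr hx
    have c4 : Tendsto (fun n => ‖h⁻¹‖ₑ *
        (eLpNorm (moll μ (stdBump n) f - f) 1 (μ.restrict (cthickening r K)) +
          eLpNorm (moll μ (stdBump n) f - f) 1 (μ.restrict (cthickening r K)))) atTop (𝓝 0) := by
      have := ENNReal.Tendsto.const_mul (a := ‖h⁻¹‖ₑ) (c2.add c2) (Or.inr enorm_ne_top)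
      simpa using this
    exact tendsto_of_tendsto_of_tendsto_of_le_of_le tendsto_const_nhds c4 (fun _ => zero_le) b2
  have hm : TendstoInMeasure (μ.restrict K) (fun n => dq h v (moll μ (stdBump n) f)) atTop
      (dq h v f) :=
    tendstoInMeasure_of_tendsto_eLpNorm one_ne_zero
      (fun n => (locInt_dq (hloc n) h v).aestronglyMeasurable.restrict)
      (locInt_dq hf h v).aestronglyMeasurable.restrict c3
  obtain ⟨ns, hns, hae⟩ := hm.exists_seq_tendsto_ae
  have l1 := Lp.eLpNorm_lim_le_liminf_eLpNorm (p := p)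
    (fun n => (locInt_dq (hloc (ns n)) h v).aestronglyMeasurable.restrict) (dq h v f) hae
  refine l1.trans ?_
  have c5 : Tendsto (fun n => eLpNorm (moll μ (stdBump (ns n)) g - g) p
      (μ.restrict (cthickening r K)) + eLpNorm g p (μ.restrict (cthickening r K))) atTop
      (𝓝 (eLpNorm g p (μ.restrict (cthickening r K)))) := by
    have := (c1.comp hns.tendsto_atTop).add_const (eLpNorm g p (μ.restrict (cthickening r K)))
    simpa using this
  have hgl : LocallyIntegrable g μ := by
    rw [locallyIntegrable_iff]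
    intro K hK
    have : IsFiniteMeasure (μ.restrict K) := ⟨by
      rw [Measure.restrict_apply_univ]; exact hK.measure_lt_top⟩
    exact memLp_one_iff_integrable.1 ((hg K hK).mono_exponent hp1)
  rw [← c5.liminf_eq]
  refine liminf_le_liminf (Eventually.of_forall fun n => (b1 (ns n)).trans ?_)
  have hgm : AEStronglyMeasurable (moll μ (stdBump (ns n)) g)
      (μ.restrict (cthickening r K)) :=
    (moll_contDiff _ hgl).continuous.aestronglyMeasurable
  have := eLpNorm_add_le (hgm.sub hgl.aestronglyMeasurable.restrict)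
    (hgl.aestronglyMeasurable.restrict) hp1 (μ := μ.restrict (cthickening r K)) (p := p)
  simpa using this

/-! ## functions with bounded difference quotients -/

theorem tendsto_dq {f : E → F} {x : E} (hf : DifferentiableAt ℝ f x) (v : E) :
    Tendsto (fun h : ℝ => dq h v f x) (𝓝[≠] 0) (𝓝 (fderiv ℝ f x v)) := by
  have h1 : HasDerivAt (fun t : ℝ => x + t • v) ((1 : ℝ) • v) 0 :=
    ((hasDerivAt_id (0 : ℝ)).smul_const v).const_add x
  have h2 : HasFDerivAt f (fderiv ℝ f x) (x + (0 : ℝ) • v) := by simpa using hf.hasFDerivAt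
  have h3 := h2.comp_hasDerivAt (0 : ℝ) h1
  have h4 := hasDerivAt_iff_tendsto_slope_zero.1 h3
  simpa [dq, Function.comp_def] using h4

theorem norm_dq_le [CompleteSpace F] {f : E → F} (hf : ContDiff ℝ 1 f) {C : ℝ}
    (hC : ∀ x, ‖fderiv ℝ f x v‖ ≤ C) {h : ℝ} (hh : h ≠ 0) (x : E) : ‖dq h v f x‖ ≤ C := by
  rw [dq_eq_integral hf hh]
  have := intervalIntegral.norm_integral_le_of_norm_le_const (a := (0 : ℝ)) (b := 1)
    (f := fun t => fderiv ℝ f (x + (t * h) • v) v) (C := C) fun t _ => hC _
  simpa using this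

/-- difference quotients of `C¹` functions are bounded on compact sets -/
theorem exists_bound_dq [CompleteSpace F] {f : E → F} (hf : ContDiff ℝ 1 f) (v : E) {K : Set E}
    (hK : IsCompact K) (R : ℝ) :
    ∃ C : ℝ, 0 ≤ C ∧ ∀ h : ℝ, |h| ≤ R → ∀ x ∈ K, ‖dq h v f x‖ ≤ C := by
  have hc : Continuous fun x => fderiv ℝ f x v :=
    (hf.continuous_fderiv one_ne_zero).clm_apply continuous_const
  obtain ⟨C, hC⟩ := (hK.cthickening (r := R * ‖v‖)).exists_bound_of_continuousOn hc.continuousOn
  refine ⟨max C 0, le_max_right _ _, fun h hh x hx => ?_⟩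
  by_cases h0 : h = 0
  · simp [dq, h0]
  rw [dq_eq_integral hf h0]
  have := intervalIntegral.norm_integral_le_of_norm_le_const (a := (0 : ℝ)) (b := 1)
    (f := fun t => fderiv ℝ f (x + (t * h) • v) v) (C := max C 0) fun t ht => by
      rw [uIoc_of_le zero_le_one] at ht
      refine (hC _ ?_).trans (le_max_left _ _)
      refine add_mem_cthickening ?_ hx
      rw [norm_smul, Real.norm_eq_abs, abs_mul, abs_of_pos ht.1]
      refine mul_le_mul_of_nonneg_right ?_ (norm_nonneg v)
      calc t * |h| ≤ 1 * |h| := mul_le_mul_of_nonneg_right ht.2 (abs_nonneg h)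
        _ ≤ R := by rw [one_mul]; exact hh
  simpa using this

theorem locInt_of_ll {p : ℝ≥0∞} (hp1 : 1 ≤ p) {g : E → F}
    (hg : ∀ K : Set E, IsCompact K → MemLp g p (μ.restrict K)) : LocallyIntegrable g μ := by
  rw [locallyIntegrable_iff]
  intro K hK
  have : IsFiniteMeasure (μ.restrict K) := ⟨by
    rw [Measure.restrict_apply_univ]; exact hK.measure_lt_top⟩
  exact memLp_one_iff_integrable.1 ((hg K hK).mono_exponent hp1)

theorem eLpNorm_two_eq {f : E → ℂ} {ν : Measure E} (hf : MemLp f 2 ν) :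
    (eLpNorm f 2 ν).toReal = Real.sqrt (∫ x, ‖f x‖ ^ 2 ∂ν) := by
  rw [← H899.norm_toLp_two hf, Lp.norm_toLp]

/-- Cauchy-Schwarz -/
theorem norm_integral_mul_le_aux {ν : Measure E} {φ D : E → ℂ} (h1 : MemLp φ 2 ν)
    (h2 : MemLp D 2 ν) :
    ‖∫ x, φ x * D x ∂ν‖ ≤ (eLpNorm φ 2 ν).toReal * (eLpNorm D 2 ν).toReal := by
  have h3 : ‖∫ x, φ x * D x ∂ν‖ₑ ≤ eLpNorm (φ • D) 1 ν := by
    rw [eLpNorm_one_eq_lintegral_enorm]
    exact enorm_integral_le_lintegral_enorm _
  have h4 : eLpNorm (φ • D) 1 ν ≤ eLpNorm φ 2 ν * eLpNorm D 2 ν :=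
    eLpNorm_smul_le_mul_eLpNorm (p := 2) (q := 2) (r := 1) h2.1 h1.1
  have h5 := h3.trans h4
  rw [← ENNReal.toReal_mul, ← toReal_enorm]
  exact ENNReal.toReal_mono (ENNReal.mul_ne_top h1.2.ne h2.2.ne) h5

/-- Cauchy-Schwarz with a test function -/
theorem norm_integral_mul_le {n : ℕ} {φ D : E → ℂ} (hφ : φ ∈ CK E n) {C : ℝ≥0∞} (hC : C ≠ ⊤)
    (hD : MemLp D 2 (μ.restrict (closedBall 0 (n : ℝ))))
    (hDC : eLpNorm D 2 (μ.restrict (closedBall 0 (n : ℝ))) ≤ C) :
    ‖∫ x, φ x * D x ∂μ‖ ≤ C.toReal * Real.sqrt (∫ x, ‖φ x‖ ^ 2 ∂μ) := by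
  have e1 : ∫ x, φ x * D x ∂μ = ∫ x in closedBall 0 (n : ℝ), φ x * D x ∂μ := by
    refine (setIntegral_eq_integral_of_forall_compl_eq_zero fun x hx => ?_).symm
    rw [image_eq_zero_of_notMem_tsupport fun h => hx (hφ.2 h), zero_mul]
  have m2 : MemLp φ 2 μ := CK.memLp hφ 2
  have m1 : MemLp φ 2 (μ.restrict (closedBall 0 (n : ℝ))) := m2.mono_measure Measure.restrict_le_self
  have h3 : (eLpNorm φ 2 (μ.restrict (closedBall 0 (n : ℝ)))).toReal ≤ (eLpNorm φ 2 μ).toReal :=
    ENNReal.toReal_mono m2.2.ne (eLpNorm_mono_measure _ Measure.restrict_le_self)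
  have h6 : (eLpNorm D 2 (μ.restrict (closedBall 0 (n : ℝ)))).toReal ≤ C.toReal :=
    ENNReal.toReal_mono hC hDC
  rw [e1, ← eLpNorm_two_eq m2, mul_comm]
  exact (norm_integral_mul_le_aux m1 hD).trans
    (mul_le_mul h3 h6 ENNReal.toReal_nonneg ENNReal.toReal_nonneg)

/-- **(b)**: an `L²_loc` function with locally bounded difference quotients has a weak
derivative in `L²_loc`. -/
theorem exists_wd_of_dq {f : E → ℂ} (hf : ∀ K : Set E, IsCompact K → MemLp f 2 (μ.restrict K))
    (hC : ∀ K : Set E, IsCompact K → ∃ C : ℝ≥0∞, C ≠ ⊤ ∧ ∃ h0 : ℝ, 0 < h0 ∧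
      ∀ h : ℝ, 0 < |h| → |h| < h0 → eLpNorm (dq h v f) 2 (μ.restrict K) ≤ C) :
    ∃ g : E → ℂ, IsWD μ v f g ∧ ∀ K : Set E, IsCompact K → MemLp g 2 (μ.restrict K) := by
  have hfl : LocallyIntegrable f μ := locInt_of_ll (by norm_num) hf
  suffices H : ∀ n : ℕ, ∃ C : ℝ, ∀ φ ∈ CK E n,
      ‖∫ x, fderiv ℝ φ x v * f x ∂μ‖ ≤ C * Real.sqrt (∫ x, ‖φ x‖ ^ 2 ∂μ) by
    obtain ⟨g, h1, h2, -⟩ := bdw hfl H
    exact ⟨g, h1, h2⟩
  intro n
  obtain ⟨C, hCt, h0, hh0, hb⟩ := hC (closedBall 0 (n : ℝ)) (isCompact_closedBall _ _)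
  refine ⟨C.toReal, fun φ hφ => ?_⟩
  have hφc := hφ.1.continuous
  have hφs := CK.compact hφ
  have hd : Differentiable ℝ φ := hφ.1.differentiable (by simp)
  -- the sequence of steps
  set u : ℕ → ℝ := fun k => -(min 1 (h0 / 2) / ((k : ℝ) + 1)) with hu
  have hmin : 0 < min 1 (h0 / 2) := lt_min one_pos (by linarith)
  have hu0 : ∀ k, u k ≠ 0 := by
    intro k
    have : 0 < min 1 (h0 / 2) / ((k : ℝ) + 1) := div_pos hmin (by positivity)
    exact (neg_neg_of_pos this).ne
  have hule : ∀ k, |u k| ≤ min 1 (h0 / 2) := by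
    intro k
    simp only [hu, abs_neg]
    rw [abs_of_nonneg (by positivity)]
    refine div_le_self hmin.le ?_
    have : (0 : ℝ) ≤ k := Nat.cast_nonneg k
    linarith
  have hut : Tendsto u atTop (𝓝[≠] 0) := by
    rw [tendsto_nhdsWithin_iff]
    refine ⟨?_, Eventually.of_forall fun k => hu0 k⟩
    have h1 : Tendsto (fun k : ℕ => min 1 (h0 / 2) / ((k : ℝ) + 1)) atTop (𝓝 0) :=
      tendsto_const_nhds.div_atTop (tendsto_atTop_add_const_right _ _ tendsto_natCast_atTop_atTop)
    simpa [hu] using h1.neg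
  -- bound of the difference quotients of `φ`
  obtain ⟨B, hB⟩ := (compact_fd hφs v).exists_bound_of_continuous (continuous_fd hφ.1 v)
  set K1 : Set E := cthickening ‖v‖ (closedBall 0 (n : ℝ)) with hK1
  have hK1c : IsCompact K1 := (isCompact_closedBall _ _).cthickening
  have hzero : ∀ k, ∀ x, x ∉ K1 → dq (u k) v φ x = 0 := by
    intro k x hx
    have h2 : φ x = 0 := by
      refine image_eq_zero_of_notMem_tsupport fun h => hx ?_
      exact self_subset_cthickening _ (hφ.2 h)
    have h3 : φ (x + u k • v) = 0 := by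
      refine image_eq_zero_of_notMem_tsupport fun h => hx ?_
      refine mem_cthickening_of_dist_le x _ ‖v‖ _ (hφ.2 h) ?_
      rw [dist_eq_norm]
      have : x - (x + u k • v) = -(u k • v) := by abel
      rw [this, norm_neg, norm_smul, Real.norm_eq_abs]
      calc |u k| * ‖v‖ ≤ 1 * ‖v‖ :=
            mul_le_mul_of_nonneg_right ((hule k).trans (min_le_left _ _)) (norm_nonneg v)
        _ = ‖v‖ := one_mul _
    simp [dq, h2, h3]
  have hlim : Tendsto (fun k => ∫ x, dq (u k) v φ x * f x ∂μ) atTop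
      (𝓝 (∫ x, fderiv ℝ φ x v * f x ∂μ)) := by
    refine tendsto_integral_of_dominated_convergence (K1.indicator fun x => B * ‖f x‖) ?_ ?_ ?_ ?_
    · intro k
      have hdc : Continuous (dq (u k) v φ) :=
        continuous_const.smul ((hφc.comp (continuous_id.add continuous_const)).sub hφc)
      exact hdc.aestronglyMeasurable.mul hfl.aestronglyMeasurable
    · rw [integrable_indicator_iff hK1c.measurableSet]
      exact ((locallyIntegrable_iff.1 hfl K1 hK1c).norm.const_mul B)
    · intro k
      refine Eventually.of_forall fun x => ?_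
      by_cases hx : x ∈ K1
      · rw [indicator_of_mem hx, norm_mul]
        exact mul_le_mul_of_nonneg_right
          (norm_dq_le (hφ.1.of_le (by simp)) hB (hu0 k) x) (norm_nonneg _)
      · rw [indicator_of_notMem hx, hzero k x hx, zero_mul, norm_zero]
    · exact Eventually.of_forall fun x => ((tendsto_dq (hd x) v).comp hut).mul_const _
  refine le_of_tendsto hlim.norm (Eventually.of_forall fun k => ?_)
  have h5 := integral_dq hfl hφc hφs (-u k) v
  rw [neg_neg] at h5
  rw [h5, norm_neg]
  refine norm_integral_mul_le hφ hCt ?_ (hb _ ?_ ?_)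
  · exact memLp_dq (isCompact_closedBall _ _) le_rfl (hf _ (isCompact_closedBall _ _).cthickening)
  · rw [abs_neg]; exact abs_pos.2 (hu0 k)
  · rw [abs_neg]
    refine lt_of_le_of_lt ((hule k).trans (min_le_right _ _)) (by linarith)

end Vale.Agent.P247.H109
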