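import Vale.Agent.P247.H109.DQ
import Vale.Agent.P247.H306.SobDef

/-!
# Difference quotients on `ℝ⁴`, in the language `LL`, `Sob`
-/

open scoped ContDiff Topology ENNReal
open Set MeasureTheory Filter Metric
open Vale.Agent.P247.H74 (R4 e)
open Vale.Agent.P363.R.Sob Vale.Agent.P247.H306

noncomputable section

namespace Vale.Agent.P247.H109

variable {F : Type*} [NormedAddCommGroup F] [NormedSpace ℝ F]

theorem norm_e (i : Fin 4) : ‖(e i : R4)‖ = 1 := by
  show ‖(Pi.single i (1 : ℝ) : R4)‖ = 1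
  rw [Pi.norm_single, norm_one]

theorem norm_smul_e (h : ℝ) (i : Fin 4) : ‖h • (e i : R4)‖ = |h| := by
  rw [norm_smul, norm_e, mul_one, Real.norm_eq_abs]

theorem LL.locInt {p : ℝ≥0∞} (hp1 : 1 ≤ p) {f : R4 → F} (hf : LL p f) :
    LocallyIntegrable f volume := locInt_of_ll hp1 hf

/-- translates of `LL p` functions -/
theorem LL.trans {p : ℝ≥0∞} {f : R4 → F} (hf : LL p f) (a : R4) : LL p fun x => f (x + a) :=
  fun _ hK => memLp_trans (hK.cthickening (r := ‖a‖)).measurableSet (hf _ hK.cthickening)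
    fun _ hx => add_mem_cthickening le_rfl hx

theorem LL.dq {p : ℝ≥0∞} {f : R4 → F} (hf : LL p f) (h : ℝ) (v : R4) :
    LL p (H109.dq h v f) := fun _ hK =>
  memLp_dq hK le_rfl (hf _ hK.cthickening)

/-- translates of `Sob k` functions -/
theorem Sob.trans {k : ℕ} {f : R4 → F} (hf : Sob k f) (a : R4) : Sob k fun x => f (x + a) := by
  induction k generalizing f with
  | zero => exact LL.trans hf a
  | succ k ih =>
    refine ⟨LL.trans hf.1 a, fun i => ?_⟩
    obtain ⟨g, hg, hs⟩ := hf.2 i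
    exact ⟨_, IsWD.trans hg a, ih hs⟩

/-- difference quotients of `Sob k` functions -/
theorem Sob.dq {k : ℕ} {f : R4 → F} (hf : Sob k f) (h : ℝ) (v : R4) :
    Sob k (H109.dq h v f) := by
  induction k generalizing f with
  | zero => exact LL.dq hf h v
  | succ k ih =>
    refine ⟨LL.dq hf.1 h v, fun i => ?_⟩
    obtain ⟨g, hg, hs⟩ := hf.2 i
    exact ⟨_, IsWD.dq hg (LL.locInt (by norm_num) hf.1) (LL.locInt (by norm_num) hs.ll) h v, ih hs⟩

/-- **(a)** on `ℝ⁴` -/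
theorem dq_le [CompleteSpace F] {f g : R4 → F} {i : Fin 4} (W : IsWD volume (e i) f g)
    (hf : LocallyIntegrable f volume) {p : ℝ≥0∞} (hp1 : 1 ≤ p) (hp : p ≠ ⊤) (hg : LL p g) {h : ℝ}
    (hh : h ≠ 0) (hr : |h| ≤ 1) {K : Set R4} (hK : IsCompact K) :
    eLpNorm (dq h (e i) f) p (volume.restrict K) ≤
      eLpNorm g p (volume.restrict (cthickening 1 K)) :=
  eLpNorm_dq_le W hf hp1 hp hg hh (by rw [norm_smul_e]; exact hr) hK

/-- **(b)** on `ℝ⁴` -/
theorem exists_wd {f : R4 → ℂ} {i : Fin 4} (hf : LL 2 f)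
    (hC : ∀ K : Set R4, IsCompact K → ∃ C : ℝ≥0∞, C ≠ ⊤ ∧ ∃ h0 : ℝ, 0 < h0 ∧
      ∀ h : ℝ, 0 < |h| → |h| < h0 → eLpNorm (dq h (e i) f) 2 (volume.restrict K) ≤ C) :
    ∃ g : R4 → ℂ, IsWD volume (e i) f g ∧ LL 2 g := exists_wd_of_dq hf hC

end Vale.Agent.P247.H109
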