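import Vale.Agent.P247.H109.DQ4

/-!
# Bounded difference quotients, values in a finite dimensional space
-/

open scoped ContDiff Topology ENNReal
open Set MeasureTheory Filter Metric
open Vale.Agent.P247.H74 (R4 e)
open Vale.Agent.P363.R.Sob Vale.Agent.P247.H306

noncomputable section

namespace Vale.Agent.P247.H109

set_option linter.unusedSectionVars false

section
variable {E : Type*} [NormedAddCommGroup E] [NormedSpace ℝ E] [FiniteDimensional ℝ E]
  [MeasurableSpace E] [BorelSpace E]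
variable {F : Type*} [NormedAddCommGroup F] [NormedSpace ℝ F]
variable {G : Type*} [NormedAddCommGroup G] [NormedSpace ℝ G]
variable {μ : Measure E} [μ.IsAddHaarMeasure] {v w : E}

theorem dq_clm (L : F →L[ℝ] G) (h : ℝ) (v : E) (f : E → F) :
    dq h v (fun x => L (f x)) = fun x => L (dq h v f x) := by
  ext x; simp [dq]

theorem memLp_clm {f : E → F} {p : ℝ≥0∞} {ν : Measure E} (L : F →L[ℝ] G) (hf : MemLp f p ν) :
    MemLp (fun x => L (f x)) p ν := L.comp_memLp' hf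

theorem eLpNorm_clm_le {f : E → F} {p : ℝ≥0∞} {ν : Measure E} (L : F →L[ℝ] G) :
    eLpNorm (fun x => L (f x)) p ν ≤ ‖L‖ₑ * eLpNorm f p ν := by
  have h1 : ∀ x, ‖L (f x)‖ ≤ ‖L‖ * ‖f x‖ := fun x => L.le_opNorm _
  have h2 := eLpNorm_le_mul_eLpNorm_of_ae_le_mul (μ := ν) (f := fun x => L (f x)) (g := f)
    (Eventually.of_forall h1) p
  rwa [ofReal_norm] at h2

theorem isWD_clm [CompleteSpace F] [CompleteSpace G] {f g : E → F} (L : F →L[ℝ] G)
    (W : IsWD μ v f g) (hf : LocallyIntegrable f μ) (hg : LocallyIntegrable g μ) :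
    IsWD μ v (fun x => L (f x)) (fun x => L (g x)) :=
  W.clm_comp L (fun _ hφ => hφ.integrable_smul hf) fun _ hφ => hφ.integrable_smul hg

theorem isWD_sum {ι : Type*} (s : Finset ι) {f g : ι → E → F} (W : ∀ i ∈ s, IsWD μ v (f i) (g i))
    (hf : ∀ i ∈ s, LocallyIntegrable (f i) μ) (hg : ∀ i ∈ s, LocallyIntegrable (g i) μ) :
    IsWD μ v (fun x => ∑ i ∈ s, f i x) (fun x => ∑ i ∈ s, g i x) := by
  intro φ hφ
  simp only [Finset.smul_sum]
  rw [integral_finsetSum _ fun i hi => (hφ.fderiv v).integrable_smul (hf i hi),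
    integral_finsetSum _ fun i hi => hφ.integrable_smul (hg i hi), ← Finset.sum_neg_distrib]
  exact Finset.sum_congr rfl fun i hi => W i hi φ hφ

/-- **(b)** for values in a finite dimensional space -/
theorem exists_wd_of_dq_fin [FiniteDimensional ℝ F] {f : E → F}
    (hf : ∀ K : Set E, IsCompact K → MemLp f 2 (μ.restrict K))
    (hC : ∀ K : Set E, IsCompact K → ∃ C : ℝ≥0∞, C ≠ ⊤ ∧ ∃ h0 : ℝ, 0 < h0 ∧
      ∀ h : ℝ, 0 < |h| → |h| < h0 → eLpNorm (dq h v f) 2 (μ.restrict K) ≤ C) :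
    ∃ g : E → F, IsWD μ v f g ∧ ∀ K : Set E, IsCompact K → MemLp g 2 (μ.restrict K) := by
  have : CompleteSpace F := FiniteDimensional.complete ℝ F
  let b := Module.finBasis ℝ F
  let ℓ : Fin (Module.finrank ℝ F) → F →L[ℝ] ℂ := fun k =>
    Complex.ofRealCLM.comp (LinearMap.toContinuousLinearMap (b.coord k))
  let m : Fin (Module.finrank ℝ F) → ℂ →L[ℝ] F := fun k =>
    (ContinuousLinearMap.toSpanSingleton ℝ (b k)).comp Complex.reCLM
  have hsum : ∀ y : F, ∑ k, m k (ℓ k y) = y := by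
    intro y
    have := b.sum_repr y
    simpa [m, ℓ, ContinuousLinearMap.toSpanSingleton_apply] using this
  have h1 : ∀ k, ∃ g : E → ℂ, IsWD μ v (fun x => ℓ k (f x)) g ∧
      ∀ K : Set E, IsCompact K → MemLp g 2 (μ.restrict K) := by
    intro k
    refine exists_wd_of_dq (fun K hK => memLp_clm (ℓ k) (hf K hK)) fun K hK => ?_
    obtain ⟨C, hC, h0, hh0, hb⟩ := hC K hK
    refine ⟨‖ℓ k‖ₑ * C, ENNReal.mul_ne_top enorm_ne_top hC, h0, hh0, fun h h1 h2 => ?_⟩
    rw [dq_clm]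
    exact (eLpNorm_clm_le (ℓ k)).trans (mul_le_mul_right (hb h h1 h2) _)
  choose g W hg using h1
  refine ⟨fun x => ∑ k, m k (g k x), ?_, fun K hK => ?_⟩
  · have h2 := isWD_sum Finset.univ (μ := μ) (v := v)
      (f := fun k x => m k (ℓ k (f x))) (g := fun k x => m k (g k x))
      (fun k _ => isWD_clm (m k) (W k)
        (locInt_of_ll (p := 2) (by norm_num) fun K hK => memLp_clm (ℓ k) (hf K hK))
        (locInt_of_ll (p := 2) (by norm_num) (hg k)))
      (fun k _ => locInt_of_ll (p := 2) (by norm_num)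
        fun K hK => memLp_clm (m k) (memLp_clm (ℓ k) (hf K hK)))
      (fun k _ => locInt_of_ll (p := 2) (by norm_num) fun K hK => memLp_clm (m k) (hg k K hK))
    simpa only [hsum] using h2
  · exact memLp_finsetSum _ fun k _ => memLp_clm (m k) (hg k K hK)

end

variable {F : Type*} [NormedAddCommGroup F] [NormedSpace ℝ F]

/-- **(a)** on `ℝ⁴`, direction of length at most one -/
theorem dq_le' [CompleteSpace F] {f g : R4 → F} {v : R4} (W : IsWD volume v f g)
    {p : ℝ≥0∞} (hp1 : 1 ≤ p) (hp : p ≠ ⊤) (hf : LL p f) (hg : LL p g) (hv : ‖v‖ ≤ 1) {h : ℝ}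
    (hh : h ≠ 0) (hr : |h| ≤ 1) {K : Set R4} (hK : IsCompact K) :
    eLpNorm (dq h v f) p (volume.restrict K) ≤
      eLpNorm g p (volume.restrict (cthickening 1 K)) := by
  refine eLpNorm_dq_le W (LL.locInt hp1 hf) hp1 hp hg hh ?_ hK
  rw [norm_smul, Real.norm_eq_abs]
  calc |h| * ‖v‖ ≤ 1 * 1 := mul_le_mul hr hv (norm_nonneg v) zero_le_one
    _ = 1 := one_mul 1

/-- **(b)** on `ℝ⁴`, values in a finite dimensional space -/
theorem exists_wd_fin [FiniteDimensional ℝ F] {f : R4 → F} {v : R4} (hf : LL 2 f)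
    (hC : ∀ K : Set R4, IsCompact K → ∃ C : ℝ≥0∞, C ≠ ⊤ ∧ ∃ h0 : ℝ, 0 < h0 ∧
      ∀ h : ℝ, h ≠ 0 → |h| < h0 → eLpNorm (dq h v f) 2 (volume.restrict K) ≤ C) :
    ∃ g : R4 → F, IsWD volume v f g ∧ LL 2 g := by
  refine exists_wd_of_dq_fin hf fun K hK => ?_
  obtain ⟨C, hC, h0, hh0, hb⟩ := hC K hK
  exact ⟨C, hC, h0, hh0, fun h h1 h2 => hb h (abs_pos.1 h1) h2⟩

end Vale.Agent.P247.H109
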