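import Vale.Agent.P247.H94.LR0
import Vale.Agent.P247.H94.E1
import Vale.Agent.P247.H447.E5.Ops

/-!
# Gårding's inequality for the Dirac operator
-/

open scoped ContDiff Topology ENNReal NNReal
open Set MeasureTheory Filter Metric
open Vale.Agent.P247.H74 Vale.Agent.P247.H574 Vale.Agent.P247.H647
open Vale.Agent.P247.H306
open Vale.Agent.P247.H447.E5

noncomputable section

namespace Vale.Agent.P247.H109

theorem opM_apply (M : Matrix (Fin 2) (Fin 2) ℂ) (ψ : Sp) (i : Fin 2) :
    opM M ψ i = ∑ j, M i j * ψ j := by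
  rw [opM, Matrix.ofLp_toEuclideanCLM]
  rfl

theorem sigM_rel (a b : Fin 4) : (sigM a).conjTranspose * sigM b +
    (sigM b).conjTranspose * sigM a = if a = b then 2 else 0 := by
  fin_cases a <;> fin_cases b <;> ext i j <;> fin_cases i <;> fin_cases j <;>
    simp [sigM, pauM, Matrix.mul_apply, Fin.sum_univ_two, Matrix.conjTranspose_apply,
      Matrix.ofNat_apply] <;> norm_num

/-- the frame as an array of functions -/
def frE {D : Data} (Q : Quat D) (a i : Fin 4) (x : R4) : ℝ := Q.b a x i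

theorem MD_apply {D : Data} (Q : Quat D) (j : Fin 4) (x : R4) (ψ : Sp) (c : Fin 2) :
    MD Q j x ψ c = ∑ d, H94.symF sigM (frE Q) j x c d * ψ d := by
  have h1 : MD Q j x ψ = ∑ a, (Q.b a x j) • sig a ψ := by
    simp [MD]
  rw [h1]
  have h2 : (∑ a, (Q.b a x j) • sig a ψ) c = ∑ a, (Q.b a x j : ℂ) * (sig a ψ c) := by
    simp [Fin.sum_univ_four]
  rw [h2]
  simp only [H94.symF, frE, sig, opM_apply, Fin.sum_univ_two, Fin.sum_univ_four,
    Matrix.add_apply, Matrix.smul_apply, smul_eq_mul]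
  ring

theorem frE_det {D : Data} (Q : Quat D) (x : R4) :
    (Matrix.of fun a i => frE Q a i x).det ≠ 0 := by
  have h1 := Q.b_det x
  have h2 : (Matrix.of fun a i => frE Q a i x) =
      (Matrix.of fun i a => Q.b a x i).transpose := by
    ext a i; rfl
  rw [h2, Matrix.det_transpose, h1]
  exact one_ne_zero

/-- a component as a real linear map -/
def cmp (d : Fin 2) : Sp →L[ℝ] ℂ := (EuclideanSpace.proj d : Sp →L[ℂ] ℂ).restrictScalars ℝ

theorem cmp_apply (d : Fin 2) (ψ : Sp) : cmp d ψ = ψ d := rfl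

theorem norm_le_cmp (ψ : Sp) : ‖ψ‖ ≤ ∑ d, ‖ψ d‖ := by
  rw [EuclideanSpace.norm_eq, Fin.sum_univ_two, Fin.sum_univ_two]
  rw [Real.sqrt_le_left (by positivity)]
  nlinarith [norm_nonneg (ψ 0), norm_nonneg (ψ 1)]

theorem cmp_le_norm (ψ : Sp) (d : Fin 2) : ‖ψ d‖ ≤ ‖ψ‖ := PiLp.norm_apply_le ψ d

theorem gar_MD (D : Data) (Q : Quat D) : Gar (MD Q) := by
  have hfs : ∀ a i, ContDiff ℝ ∞ (frE Q a i) := fun a i => (contDiff_pi.1 (Q.b_smooth a)) i
  obtain ⟨lam, hcl⟩ := H94.cliff_of_frame (τ := sigM) sigM_rel (E := frE Q)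
    hfs (fun a i n x => by simp only [frE, Q.b_per a n x]) (frE_det Q)
  obtain ⟨C, hC⟩ := H94.IL.garding_s hcl (fun j k => by
    unfold H94.metF
    exact continuous_finsetSum _ fun a _ => (hfs a j).continuous.mul (hfs a k).continuous)
  refine fun x₀ => ⟨1, one_pos, 4 * C, fun φ hφ hs _ i => ?_⟩
  have hφd : ∀ d : Fin 2, ContDiff ℝ ∞ fun x => φ x d := fun d => (cmp d).contDiff.comp hφ
  have hsd : ∀ d : Fin 2, HasCompactSupport fun x => φ x d := fun d =>
    hs.comp_left (g := fun y : Sp => y d) rfl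
  have hdd : ∀ (d : Fin 2) x u, fderiv ℝ (fun x => φ x d) x u = (fderiv ℝ φ x u) d := by
    intro d x u
    have h1 : HasFDerivAt (fun x => cmp d (φ x)) ((cmp d).comp (fderiv ℝ φ x)) x :=
      (cmp d).hasFDerivAt.comp x (hφ.differentiable (by simp) x).hasFDerivAt
    have h2 : (fun x => φ x d) = fun x => cmp d (φ x) := rfl
    rw [h2, h1.fderiv]
    rfl
  have key := hC (fun d x => φ x d) hφd hsd
  -- measurability
  have hcont : Continuous fun x => fderiv ℝ φ x (e i) :=
    (hφ.continuous_fderiv (by simp)).clm_apply continuous_const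
  have hle : eLpNorm (fun x => fderiv ℝ φ x (e i)) 2 volume ≤
      ∑ d : Fin 2, eLpNorm (fun x => (fderiv ℝ φ x (e i)) d) 2 volume := by
    have h1 : eLpNorm (fun x => fderiv ℝ φ x (e i)) 2 volume ≤
        eLpNorm (fun x => ∑ d : Fin 2, ‖(fderiv ℝ φ x (e i)) d‖) 2 volume :=
      eLpNorm_mono fun x => (norm_le_cmp _).trans (le_abs_self _)
    refine h1.trans ?_
    have h2 := eLpNorm_sum_le (μ := volume) (p := 2) (s := Finset.univ)
      (f := fun (d : Fin 2) x => ‖(fderiv ℝ φ x (e i)) d‖)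
      (fun d _ => (((cmp d).continuous.comp hcont).norm).aestronglyMeasurable) (by norm_num)
    have h3 : (∑ d : Fin 2, fun x => ‖(fderiv ℝ φ x (e i)) d‖) =
        fun x => ∑ d : Fin 2, ‖(fderiv ℝ φ x (e i)) d‖ := by
      ext x; simp
    rw [h3] at h2
    refine h2.trans (le_of_eq ?_)
    exact Finset.sum_congr rfl fun d _ => eLpNorm_norm _
  refine hle.trans ?_
  have hD : ∀ c : Fin 2, eLpNorm (fun x => ∑ j, ∑ d, H94.symF sigM (frE Q) j x c d *
      fderiv ℝ (fun x => φ x d) x (e j)) 2 volume ≤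
      eLpNorm (fun x => ∑ j, MD Q j x (fderiv ℝ φ x (e j))) 2 volume := by
    intro c
    refine eLpNorm_mono fun x => ?_
    have h1 : ∑ j, ∑ d, H94.symF sigM (frE Q) j x c d * fderiv ℝ (fun x => φ x d) x (e j) =
        (∑ j, MD Q j x (fderiv ℝ φ x (e j))) c := by
      have h2 : (∑ j, MD Q j x (fderiv ℝ φ x (e j))) c =
          ∑ j, (MD Q j x (fderiv ℝ φ x (e j))) c := by
        simp [Fin.sum_univ_four]
      rw [h2]
      refine Finset.sum_congr rfl fun j _ => ?_
      rw [MD_apply]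
      simp only [hdd]
    rw [h1]
    exact cmp_le_norm _ c
  have hφn : ∀ d : Fin 2, eLpNorm (fun x => φ x d) 2 volume ≤ eLpNorm φ 2 volume := fun d =>
    eLpNorm_mono fun x => cmp_le_norm _ d
  calc ∑ d : Fin 2, eLpNorm (fun x => (fderiv ℝ φ x (e i)) d) 2 volume
      = ∑ d : Fin 2, eLpNorm (fun x => fderiv ℝ (fun x => φ x d) x (e i)) 2 volume := by
        simp only [hdd]
    _ ≤ ∑ _d : Fin 2, C * (∑ _c : Fin 2,
          eLpNorm (fun x => ∑ j, MD Q j x (fderiv ℝ φ x (e j))) 2 volume +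
            ∑ _d : Fin 2, eLpNorm φ 2 volume) := by
        refine Finset.sum_le_sum fun d _ => (key d i).trans ?_
        refine mul_le_mul_right ?_ _
        exact add_le_add (Finset.sum_le_sum fun c _ => hD c)
          (Finset.sum_le_sum fun d _ => hφn d)
    _ = ((4 * C : ℝ≥0) : ℝ≥0∞) * (eLpNorm (fun x => ∑ j, MD Q j x (fderiv ℝ φ x (e j))) 2 volume
          + eLpNorm φ 2 volume) := by
        simp only [Fin.sum_univ_two]
        push_cast
        ring

end Vale.Agent.P247.H109
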