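import Vale.Agent.P247.H109.SobBasic
import Vale.Agent.P247.H447.E5.Sta

/-!
# Linear regularity, all orders, from the first step
-/

open scoped ContDiff Topology ENNReal NNReal
open Set MeasureTheory Filter Metric
open Vale.Agent.P247.H74 (R4 e)
open Vale.Agent.P363.R.Sob
open Vale.Agent.P247.H306
open Vale.Agent.P247.H447.E5

noncomputable section

namespace Vale.Agent.P247.H109

theorem LRk (h : LRC_statement) : LRk_statement := by
  intro V W _ _ _ _ _ _ M hM hG k
  have : CompleteSpace V := FiniteDimensional.complete ℝ V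
  have : CompleteSpace W := FiniteDimensional.complete ℝ W
  induction k with
  | zero => intro f u P h0; omega
  | succ k ih =>
    intro f u P _ hf hu hP hW heq
    rcases Nat.eq_zero_or_pos k with hk | hk
    · subst hk
      refine h V W M hM hG (fun _ => 0) (fun _ _ => 0) f u P (ll_zero 4) (fun _ => ll_zero 4)
        (fun _ => isWD_zero) hf hu hP hW ?_
      filter_upwards [heq] with x hx
      simpa using hx
    · have hu1 : Sob (k + 1) u := ih f u P hk (Sob.mono (Nat.le_succ k) hf) hu hP hW heq
      refine ⟨hu, fun i => ⟨P i, hW i, ?_⟩⟩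
      -- all first derivatives are in `Sob k`
      have hPk : ∀ j, Sob k (P j) := by
        intro j
        obtain ⟨g, hg, hs⟩ := hu1.2 j
        exact sob_congr hs (hg.unique (hW j) (sob_locInt hs) (LL.locInt (by norm_num) (hP j)))
      -- second derivatives
      obtain ⟨l, rfl⟩ : ∃ l, k = l + 1 := ⟨k - 1, by omega⟩
      have hQ : ∀ j, ∃ g, IsWD volume (e j) (P i) g ∧ Sob l g := fun j => (hPk i).2 j
      choose Q hQW hQs using hQ
      have hQW' : ∀ j, IsWD volume (e i) (P j) (Q j) := fun j => isWD_symm (hW i) (hW j) (hQW j)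
      obtain ⟨F, hF, hFs⟩ := hf.2 i
      -- differentiate the equation
      have hM' : ∀ j, ContDiff ℝ ∞ fun x => fderiv ℝ (M j) x (e i) := fun j =>
        ((hM j).fderiv_right (m := ∞) (by simp)).clm_apply contDiff_const
      have hPl : ∀ j, LocallyIntegrable (P j) volume := fun j => sob_locInt (hPk j)
      have hQl : ∀ j, LocallyIntegrable (Q j) volume := fun j => sob_locInt (hQs j)
      have hd1 : IsWD volume (e i) (fun x => ∑ j, M j x (P j x))
          (fun x => ∑ j, (fderiv ℝ (M j) x (e i) (P j x) + M j x (Q j x))) := by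
        refine isWD_sum Finset.univ (fun j _ => isWD_coef (hM j) (hQW' j) (hPl j) (hQl j))
          (fun j _ => ?_) (fun j _ => ?_)
        · exact sob_locInt (sob_coef (hM j) (hPk j))
        · exact (sob_locInt (sob_coef (hM' j) (hPk j))).add
            (sob_locInt (sob_coef (hM j) (hQs j)))
      have hs1 : Sob (l + 1) fun x => ∑ j, fderiv ℝ (M j) x (e i) (P j x) :=
        sob_sum Finset.univ fun j _ => sob_coef (hM' j) (hPk j)
      have hs2 : Sob l fun x => ∑ j, (fderiv ℝ (M j) x (e i) (P j x) + M j x (Q j x)) :=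
        sob_sum Finset.univ fun j _ => sob_add
          (Sob.mono (Nat.le_succ l) (sob_coef (hM' j) (hPk j))) (sob_coef (hM j) (hQs j))
      have heq2 : (fun x => ∑ j, (fderiv ℝ (M j) x (e i) (P j x) + M j x (Q j x))) =ᵐ[volume] F :=
        (hd1.congr heq (ae_eq_refl _)).unique hF (sob_locInt hs2) (sob_locInt hFs)
      refine ih (fun x => F x - ∑ j, fderiv ℝ (M j) x (e i) (P j x)) (P i) Q hk
        (sob_sub hFs hs1) (hP i) (fun j => (hQs j).ll) hQW ?_
      filter_upwards [heq2] with x hx
      rw [← hx, Finset.sum_add_distrib]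
      abel

end Vale.Agent.P247.H109
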