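import Vale.Agent.P247.H109.DQF
import Vale.Agent.P363.R.Sob.Chain

/-!
# Elementary calculus of `Sob k`: congruence, sums, smooth coefficients, symmetry of second
weak derivatives
-/

open scoped ContDiff Topology ENNReal
open Set MeasureTheory Filter Metric
open Vale.Agent.P247.H74 (R4 e)
open Vale.Agent.P363.R.Sob Vale.Agent.P247.H306

noncomputable section

namespace Vale.Agent.P247.H109

set_option linter.unusedSectionVars false

section
variable {E : Type*} [NormedAddCommGroup E] [NormedSpace ℝ E] [FiniteDimensional ℝ E]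
  [MeasurableSpace E] [BorelSpace E]
variable {F : Type*} [NormedAddCommGroup F] [NormedSpace ℝ F]
variable {G : Type*} [NormedAddCommGroup G] [NormedSpace ℝ G]
variable {μ : Measure E} [μ.IsAddHaarMeasure] {v w : E}

theorem aesm_clm {ν : Measure E} {L : E → F →L[ℝ] G} {f : E → F}
    (hL : AEStronglyMeasurable L ν) (hf : AEStronglyMeasurable f ν) :
    AEStronglyMeasurable (fun x => L x (f x)) ν :=
  (isBoundedBilinearMap_apply (𝕜 := ℝ) (E := F) (F := G)).continuous.comp_aestronglyMeasurable
    (hL.prodMk hf)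

/-- the product rule with a smooth coefficient -/
theorem isWD_coef [CompleteSpace F] [CompleteSpace G] {M : E → F →L[ℝ] G} (hM : ContDiff ℝ ∞ M)
    {f g : E → F} (W : IsWD μ v f g) (hf : LocallyIntegrable f μ) (hg : LocallyIntegrable g μ) :
    IsWD μ v (fun x => M x (f x)) (fun x => fderiv ℝ M x v (f x) + M x (g x)) := by
  have hMc : Continuous M := hM.continuous
  have hM'c : Continuous fun x => fderiv ℝ M x v :=
    (hM.continuous_fderiv (by simp)).clm_apply continuous_const
  have hli : ∀ {A : E → F →L[ℝ] G} {u : E → F}, Continuous A → LocallyIntegrable u μ →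
      LocallyIntegrable (fun x => A x (u x)) μ := by
    intro A u hA hu
    rw [locallyIntegrable_iff] at hu ⊢
    intro K hK
    obtain ⟨C, hC⟩ := hK.exists_bound_of_continuousOn hA.continuousOn
    refine Integrable.mono' ((hu K hK).norm.const_mul C) ?_ ?_
    · exact aesm_clm hA.aestronglyMeasurable (hu K hK).aestronglyMeasurable
    · filter_upwards [ae_restrict_mem hK.measurableSet] with x hx
      exact (A x).le_of_opNorm_le (hC x hx) _
  have hlim : ∀ {A : E → F →L[ℝ] G} {u : E → F} {un : ℕ → E → F} {K : Set E}, IsCompact K →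
      Continuous A → Tendsto (fun n => eLpNorm (un n - u) 1 (μ.restrict K)) atTop (𝓝 0) →
      Tendsto (fun n => eLpNorm ((fun x => A x (un n x)) - fun x => A x (u x)) 1
        (μ.restrict K)) atTop (𝓝 0) := by
    intro A u un K hK hA h
    obtain ⟨C, hC⟩ := hK.exists_bound_of_continuousOn hA.continuousOn
    have h0 := ENNReal.Tendsto.const_mul (a := ENNReal.ofReal C) h (Or.inr ENNReal.ofReal_ne_top)
    rw [mul_zero] at h0
    refine tendsto_of_tendsto_of_tendsto_of_le_of_le tendsto_const_nhds h0 (fun _ => zero_le)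
      fun n => ?_
    refine eLpNorm_le_mul_eLpNorm_of_ae_le_mul ?_ 1
    filter_upwards [ae_restrict_mem hK.measurableSet] with x hx
    simp only [Pi.sub_apply, ← map_sub]
    exact (A x).le_of_opNorm_le (hC x hx) _
  refine IsWD.of_tendsto_local (hli hMc hf) ((hli hM'c hf).add (hli hMc hg)) fun K hK => ?_
  obtain ⟨fn, hfn, c1, c2, -, -⟩ := W.exists_local_approx hf hg hK
  have hder : ∀ n x, fderiv ℝ (fun x => M x (fn n x)) x v =
      fderiv ℝ M x v (fn n x) + M x (fderiv ℝ (fn n) x v) := by
    intro n x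
    have h1 := (hM.differentiable (by simp) x).hasFDerivAt.clm_apply
      ((hfn n).differentiable (by simp) x).hasFDerivAt
    rw [h1.fderiv]
    simp [add_comm]
  have hsm : ∀ n, ContDiff ℝ ∞ fun x => M x (fn n x) := fun n => hM.clm_apply (hfn n)
  have hcd : ∀ n, Continuous fun x => fderiv ℝ (fn n) x v := fun n =>
    ((hfn n).continuous_fderiv (by simp)).clm_apply continuous_const
  refine ⟨fun n x => M x (fn n x), fun n x => fderiv ℝ M x v (fn n x) + M x (fderiv ℝ (fn n) x v),
    fun n => ?_, fun n => (hsm n).continuous.locallyIntegrable, fun n => ?_, hlim hK hMc c1, ?_⟩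
  · have := isWD_of_contDiff (μ := μ) (v := v) ((hsm n).of_le (by simp) : ContDiff ℝ 1 _)
    simpa only [hder] using this
  · exact ((hM'c.clm_apply (hfn n).continuous).add (hMc.clm_apply (hcd n))).locallyIntegrable
  · have a1 := hlim hK hM'c c1
    have a2 := hlim hK hMc c2
    have a3 := a1.add a2
    rw [add_zero] at a3
    refine tendsto_of_tendsto_of_tendsto_of_le_of_le tendsto_const_nhds a3 (fun _ => zero_le)
      fun n => ?_
    have e1 : ((fun x => fderiv ℝ M x v (fn n x) + M x (fderiv ℝ (fn n) x v)) -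
        fun x => fderiv ℝ M x v (f x) + M x (g x)) =
        ((fun x => fderiv ℝ M x v (fn n x)) - fun x => fderiv ℝ M x v (f x)) +
        ((fun x => M x (fderiv ℝ (fn n) x v)) - fun x => M x (g x)) := by
      ext x; simp only [Pi.sub_apply, Pi.add_apply]; abel
    rw [e1]
    refine eLpNorm_add_le ?_ ?_ le_rfl
    · exact ((hM'c.clm_apply (hfn n).continuous).aestronglyMeasurable.sub
        (hli hM'c hf).aestronglyMeasurable).restrict
    · exact ((hMc.clm_apply (hcd n)).aestronglyMeasurable.sub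
        (hli hMc hg).aestronglyMeasurable).restrict

/-- second weak derivatives are symmetric -/
theorem isWD_symm {u p q r : E → F} (W1 : IsWD μ v u p) (W2 : IsWD μ w u q)
    (W3 : IsWD μ w p r) : IsWD μ v q r := by
  intro φ hφ
  have hsym : ∀ x, fderiv ℝ (fun y => fderiv ℝ φ y v) x w =
      fderiv ℝ (fun y => fderiv ℝ φ y w) x v := by
    intro x
    have hd : DifferentiableAt ℝ (fderiv ℝ φ) x :=
      ((hφ.1.fderiv_right (m := ∞) (by simp)).differentiable (by simp)) x
    have e1 : ∀ z, fderiv ℝ (fun y => fderiv ℝ φ y z) x = (fderiv ℝ (fderiv ℝ φ) x).flip z := by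
      intro z
      have := hd.hasFDerivAt.clm_apply (hasFDerivAt_const z x)
      rw [this.fderiv]
      simp
    rw [e1, e1]
    have hs : IsSymmSndFDerivAt ℝ φ x :=
      hφ.1.contDiffAt.isSymmSndFDerivAt (by
        simp only [minSmoothness_of_isRCLikeNormedField]; norm_cast)
    simpa using (hs w v)
  have h1 := W2 _ (hφ.fderiv v)
  have h2 := W1 _ (hφ.fderiv w)
  have h3 := W3 _ hφ
  have h4 : ∫ x, (fderiv ℝ φ x v) • q x ∂μ = ∫ x, (fderiv ℝ φ x w) • p x ∂μ := by
    have h5 : -∫ x, (fderiv ℝ φ x v) • q x ∂μ = -∫ x, (fderiv ℝ φ x w) • p x ∂μ := by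
      rw [← h1, ← h2]
      simp only [hsym]
    exact neg_injective h5
  rw [h4, h3]

end

variable {F : Type*} [NormedAddCommGroup F] [NormedSpace ℝ F]
variable {G : Type*} [NormedAddCommGroup G] [NormedSpace ℝ G]

theorem ll_congr {p : ℝ≥0∞} {f g : R4 → F} (hf : LL p f) (h : f =ᵐ[volume] g) : LL p g :=
  fun K hK => (hf K hK).ae_eq (ae_restrict_of_ae h)

theorem ll_add {p : ℝ≥0∞} {f g : R4 → F} (hf : LL p f) (hg : LL p g) :
    LL p fun x => f x + g x := fun K hK => (hf K hK).add (hg K hK)

theorem ll_neg {p : ℝ≥0∞} {f : R4 → F} (hf : LL p f) : LL p fun x => -f x :=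
  fun K hK => (hf K hK).neg

theorem ll_sub {p : ℝ≥0∞} {f g : R4 → F} (hf : LL p f) (hg : LL p g) :
    LL p fun x => f x - g x := fun K hK => (hf K hK).sub (hg K hK)

theorem ll_sum {p : ℝ≥0∞} {ι : Type*} (s : Finset ι) {f : ι → R4 → F} (hf : ∀ i ∈ s, LL p (f i)) :
    LL p fun x => ∑ i ∈ s, f i x := fun K hK => memLp_finsetSum s fun i hi => hf i hi K hK

theorem ll_zero (p : ℝ≥0∞) : LL p fun _ : R4 => (0 : F) := fun _ _ => MemLp.zero'

theorem ll_clm {p : ℝ≥0∞} {f : R4 → F} (L : F →L[ℝ] G) (hf : LL p f) : LL p fun x => L (f x) :=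
  fun K hK => memLp_clm L (hf K hK)

/-- product with a continuous coefficient -/
theorem ll_coef {p : ℝ≥0∞} {M : R4 → F →L[ℝ] G} (hM : Continuous M) {f : R4 → F} (hf : LL p f) :
    LL p fun x => M x (f x) := by
  intro K hK
  obtain ⟨C, hC⟩ := hK.exists_bound_of_continuousOn hM.continuousOn
  refine MemLp.of_le_mul (g := f) (c := C) (hf K hK) ?_ ?_
  · exact aesm_clm hM.aestronglyMeasurable (hf K hK).1
  · filter_upwards [ae_restrict_mem hK.measurableSet] with x hx
    exact (M x).le_of_opNorm_le (hC x hx) _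

theorem sob_congr {k : ℕ} {f g : R4 → F} (hf : Sob k f) (h : f =ᵐ[volume] g) : Sob k g := by
  cases k with
  | zero => exact ll_congr hf h
  | succ k =>
    refine ⟨ll_congr hf.1 h, fun i => ?_⟩
    obtain ⟨p, hp, hs⟩ := hf.2 i
    exact ⟨p, hp.congr h (ae_eq_refl _), hs⟩

theorem sob_locInt {k : ℕ} {f : R4 → F} (hf : Sob k f) : LocallyIntegrable f volume :=
  LL.locInt (by norm_num) hf.ll

theorem sob_add {k : ℕ} {f g : R4 → F} (hf : Sob k f) (hg : Sob k g) :
    Sob k fun x => f x + g x := by
  induction k generalizing f g with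
  | zero => exact ll_add hf hg
  | succ k ih =>
    refine ⟨ll_add hf.1 hg.1, fun i => ?_⟩
    obtain ⟨p, hp, hs⟩ := hf.2 i
    obtain ⟨q, hq, ht⟩ := hg.2 i
    exact ⟨_, hp.add hq (sob_locInt hf) (sob_locInt hs) (sob_locInt hg) (sob_locInt ht), ih hs ht⟩

theorem sob_neg {k : ℕ} {f : R4 → F} (hf : Sob k f) : Sob k fun x => -f x := by
  induction k generalizing f with
  | zero => exact ll_neg hf
  | succ k ih =>
    refine ⟨ll_neg hf.1, fun i => ?_⟩
    obtain ⟨p, hp, hs⟩ := hf.2 i
    exact ⟨_, hp.neg, ih hs⟩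

theorem sob_sub {k : ℕ} {f g : R4 → F} (hf : Sob k f) (hg : Sob k g) :
    Sob k fun x => f x - g x := by
  simpa only [sub_eq_add_neg] using sob_add hf (sob_neg hg)

theorem sob_zero_fun (k : ℕ) : Sob k fun _ : R4 => (0 : F) := by
  induction k with
  | zero => exact ll_zero 2
  | succ k ih => exact ⟨ll_zero 2, fun i => ⟨_, isWD_zero, ih⟩⟩

theorem sob_sum {k : ℕ} {ι : Type*} (s : Finset ι) {f : ι → R4 → F} (hf : ∀ i ∈ s, Sob k (f i)) :
    Sob k fun x => ∑ i ∈ s, f i x := by
  classical
  induction s using Finset.induction_on with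
  | empty => simpa using sob_zero_fun k
  | insert a s ha ih =>
    simp only [Finset.sum_insert ha]
    exact sob_add (hf a (Finset.mem_insert_self a s))
      (ih fun i hi => hf i (Finset.mem_insert_of_mem hi))

/-- multiplication with a smooth coefficient -/
theorem sob_coef [CompleteSpace F] [CompleteSpace G] {k : ℕ} {M : R4 → F →L[ℝ] G}
    (hM : ContDiff ℝ ∞ M) {f : R4 → F} (hf : Sob k f) : Sob k fun x => M x (f x) := by
  induction k generalizing f M with
  | zero => exact ll_coef hM.continuous hf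
  | succ k ih =>
    refine ⟨ll_coef hM.continuous hf.1, fun i => ?_⟩
    obtain ⟨p, hp, hs⟩ := hf.2 i
    refine ⟨_, isWD_coef hM hp (sob_locInt hf) (sob_locInt hs), ?_⟩
    have hM' : ContDiff ℝ ∞ fun x => fderiv ℝ M x (e i) :=
      (hM.fderiv_right (m := ∞) (by simp)).clm_apply contDiff_const
    exact sob_add (ih hM' (Sob.mono (Nat.le_succ k) hf)) (ih hM hs)

theorem sob_clm [CompleteSpace F] [CompleteSpace G] {k : ℕ} {f : R4 → F} (L : F →L[ℝ] G)
    (hf : Sob k f) : Sob k fun x => L (f x) := sob_coef (M := fun _ => L) contDiff_const hf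

end Vale.Agent.P247.H109
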