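import Vale.Agent.P247.H931.S1.Sta

/-!
# The truncated quadratic map has bounded derivatives
-/

open scoped ContDiff Topology ENNReal NNReal
open Set MeasureTheory Filter Metric
open Vale.Agent.P247.H74 Vale.Agent.P247.H574 Vale.Agent.P247.H647
open Vale.Agent.P247.H931.S1

noncomputable section

namespace Vale.Agent.P247.H109

/-- a smooth function which is homogeneous of degree zero at infinity has bounded derivatives -/
theorem bdd_of_homog {V W : Type*} [NormedAddCommGroup V] [NormedSpace ℝ V]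
    [FiniteDimensional ℝ V] [NormedAddCommGroup W] [NormedSpace ℝ W] {f : V → W}
    (hf : ContDiff ℝ ∞ f) {r : ℝ} (hr : 0 < r)
    (h : ∀ x, r ≤ ‖x‖ → ∀ t : ℝ, 1 ≤ t → f (t • x) = f x) (n : ℕ) :
    ∃ C : ℝ, ∀ y, ‖iteratedFDeriv ℝ n f y‖ ≤ C := by
  have hc : Continuous (iteratedFDeriv ℝ n f) :=
    hf.continuous_iteratedFDeriv (by exact_mod_cast le_top)
  obtain ⟨C, hC⟩ := (isCompact_closedBall (0 : V) (2 * r)).exists_bound_of_continuousOn
    hc.continuousOn
  have hC0 : 0 ≤ C := (norm_nonneg _).trans (hC 0 (mem_closedBall_self (by linarith)))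
  refine ⟨C, fun y => ?_⟩
  by_cases hy : ‖y‖ ≤ 2 * r
  · exact hC y (by simpa using hy)
  push Not at hy
  set t : ℝ := ‖y‖ / (2 * r) with ht
  have ht1 : 1 ≤ t := by
    rw [ht, le_div_iff₀ (by positivity)]; linarith
  have ht0 : 0 < t := by linarith
  let g : V →L[ℝ] V := t⁻¹ • ContinuousLinearMap.id ℝ V
  have hg : ∀ z, g z = t⁻¹ • z := fun z => rfl
  have hgy : ‖g y‖ = 2 * r := by
    rw [hg, norm_smul, norm_inv, Real.norm_of_nonneg ht0.le, ht]
    have : ‖y‖ ≠ 0 := by linarith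
    field_simp
  have hev : f ∘ g =ᶠ[𝓝 y] f := by
    have h1 : ∀ᶠ z in 𝓝 y, r < ‖g z‖ := by
      refine (g.continuous.norm.tendsto y).eventually_const_lt ?_
      rw [hgy]; linarith
    filter_upwards [h1] with z hz
    have h2 := h (g z) hz.le t ht1
    rw [Function.comp_apply, ← h2, hg, smul_smul, mul_inv_cancel₀ ht0.ne', one_smul]
  have h3 : iteratedFDeriv ℝ n (f ∘ g) y = iteratedFDeriv ℝ n f y :=
    (hev.iteratedFDeriv ℝ n).self_of_nhds
  have h4 := g.iteratedFDeriv_comp_right hf y (i := n) (by exact_mod_cast le_top)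
  have hgn : ‖g‖ ≤ 1 := by
    refine ContinuousLinearMap.opNorm_le_bound _ zero_le_one fun z => ?_
    rw [hg, norm_smul, norm_inv, Real.norm_of_nonneg ht0.le]
    exact mul_le_mul_of_nonneg_right (inv_le_one_of_one_le₀ ht1) (norm_nonneg z)
  rw [← h3, h4]
  refine (ContinuousMultilinearMap.norm_compContinuousLinearMap_le _ _).trans ?_
  rw [Finset.prod_const]
  calc ‖iteratedFDeriv ℝ n f (g y)‖ * ‖g‖ ^ (Finset.univ : Finset (Fin n)).card
      ≤ C * 1 := by
        refine mul_le_mul (hC _ ?_) (pow_le_one₀ (norm_nonneg g) hgn) (by positivity) hC0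
        rw [mem_closedBall_zero_iff, hgy]
    _ = C := mul_one C

theorem gT_pos_aux (t : ℝ) : 0 < 1 + (t - 1) * Real.smoothTransition (t - 1) := by
  rcases le_or_gt t 1 with h | h
  · rw [Real.smoothTransition.zero_of_nonpos (by linarith)]; norm_num
  · have h1 := Real.smoothTransition.nonneg (t - 1)
    have h2 : 0 ≤ (t - 1) * Real.smoothTransition (t - 1) := mul_nonneg (by linarith) h1
    linarith

theorem gT_smooth : ContDiff ℝ ∞ gT := by
  unfold gT
  refine ContDiff.inv ?_ fun t => (gT_pos_aux t).ne'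
  exact contDiff_const.add ((contDiff_id.sub contDiff_const).mul
    (Real.smoothTransition.contDiff.comp (contDiff_id.sub contDiff_const)))

theorem gT_of_two_le {t : ℝ} (ht : 2 ≤ t) : gT t = t⁻¹ := by
  unfold gT
  rw [Real.smoothTransition.one_of_one_le (by linarith)]
  congr 1; ring

theorem qR_smooth (R : ℝ) : ContDiff ℝ ∞ (qR R) := by
  refine contDiff_pi.2 fun k => ?_
  unfold qR
  have h1 : ContDiff ℝ ∞ fun s : Sp => ‖s‖ ^ 2 / R ^ 2 := (contDiff_norm_sq ℝ).div_const _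
  have h2 : ContDiff ℝ ∞ fun s : Sp => (inner ℂ s (pau k s)).re := by
    have h3 : ContDiff ℝ ∞ fun s : Sp => inner ℂ s (pau k s) :=
      contDiff_id.inner ℂ ((pau k).restrictScalars ℝ).contDiff
    exact Complex.reCLM.contDiff.comp h3
  exact (gT_smooth.comp h1).mul h2

theorem qR_homog {R : ℝ} (hR : 0 < R) (s : Sp) (hs : 2 * R ≤ ‖s‖) (t : ℝ) (ht : 1 ≤ t) :
    qR R (t • s) = qR R s := by
  have hs0 : 0 < ‖s‖ := by linarith
  have h1 : 2 ≤ ‖s‖ ^ 2 / R ^ 2 := by
    rw [le_div_iff₀ (by positivity)]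
    nlinarith
  have hts : ‖t • s‖ ^ 2 = t ^ 2 * ‖s‖ ^ 2 := by
    rw [norm_smul, Real.norm_of_nonneg (by linarith)]; ring
  have h2 : 2 ≤ ‖t • s‖ ^ 2 / R ^ 2 := by
    rw [hts, mul_div_assoc]
    nlinarith
  ext k
  have h3 : (inner ℂ (t • s) (pau k (t • s))).re = t ^ 2 * (inner ℂ s (pau k s)).re := by
    have e1 : t • s = (t : ℂ) • s := (Complex.coe_smul t s).symm
    rw [e1, map_smul, inner_smul_left, inner_smul_right, Complex.conj_ofReal, ← mul_assoc,
      ← Complex.ofReal_mul, Complex.re_ofReal_mul]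
    ring
  rw [qR, qR, gT_of_two_le h1, gT_of_two_le h2, h3, hts]
  have : ‖s‖ ≠ 0 := hs0.ne'
  have ht0 : t ≠ 0 := by linarith
  field_simp

/-- all derivatives of the truncated quadratic map are bounded -/
theorem qR_bdd {R : ℝ} (hR : 0 < R) (n : ℕ) : ∃ C : ℝ, ∀ y, ‖iteratedFDeriv ℝ n (qR R) y‖ ≤ C :=
  bdd_of_homog (qR_smooth R) (r := 2 * R) (by linarith) (fun s hs t ht => qR_homog hR s hs t ht) n

end Vale.Agent.P247.H109
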